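import Vale.Agent.P125.H295.Defs

/-!
# P125 : the Markov chain inequality on one finite chain
-/

namespace P125

/-- The Markov chain inequality at time `t` on the single chain `P` (symmetric, `Z_0` uniform), in
the (pseudo)metric space `M`: `E d(f(Z_t), f(Z_0)) ^ p ≤ c * E d(f(Z_1), f(Z_0)) ^ p` for all
`f : S → M`.  The common factor `1 / |S|` of both sides is cancelled. -/
def ChainIneq {S : Type} [Fintype S] [DecidableEq S] (P : Matrix S S ℝ)
    (M : Type*) [PseudoMetricSpace M] (p : ℝ) (t : ℕ) (c : ℝ) : Prop :=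
  ∀ f : S → M, ∑ i, ∑ j, (P ^ t) i j * dist (f i) (f j) ^ p ≤
    c * ∑ i, ∑ j, P i j * dist (f i) (f j) ^ p

end P125
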