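import Vale.Agent.P125.H154.Univ
import Vale.Agent.P125.H154.Defs
import Vale.Agent.P125.H295.Conv

/-!
# P125 : universal test chains for superreflexivity
-/

set_option linter.all false

namespace P125.H154

open Finset Filter Topology P125

/-- Transfer to a normed space along a coarse Lipschitz embedding, for one chain. -/
theorem oneAt_of_coarse {S : Type} [Fintype S] [DecidableEq S] {P : Matrix S S ℝ}
    (hP : IsSymmChain P) {X : Type*} [NormedAddCommGroup X] [NormedSpace ℝ X] {M : Type*}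
    [PseudoMetricSpace M] {F : X → M} {θ a A : ℝ} (ha : 0 < a) (hA : 0 < A)
    (hF : ∀ x y, θ ≤ dist x y →
      a * dist x y ≤ dist (F x) (F y) ∧ dist (F x) (F y) ≤ A * dist x y)
    {p : ℝ} (hp : 0 < p) {t : ℕ} {c : ℝ} (hc : 0 ≤ c) (h : ChainIneq P M p t c) :
    OneAt P (fun x : X => ‖x‖) p t (c * (A / a) ^ p) := by
  intro f
  -- a large dilation
  have hn : ∃ n : ℕ, 0 < n ∧ ∀ i j : S, f i = f j ∨ θ ≤ (n : ℝ) * ‖f j - f i‖ := by
    have h1 : ∀ i j : S, ∀ᶠ n : ℕ in atTop, f i = f j ∨ θ ≤ (n : ℝ) * ‖f j - f i‖ := by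
      intro i j
      by_cases hij : f i = f j
      · exact Filter.Eventually.of_forall fun _ => Or.inl hij
      · have hpos : 0 < ‖f j - f i‖ := by
          rw [norm_pos_iff, sub_ne_zero]
          exact fun h => hij h.symm
        have h2 : Tendsto (fun n : ℕ => (n : ℝ) * ‖f j - f i‖) atTop atTop :=
          tendsto_natCast_atTop_atTop.atTop_mul_const hpos
        filter_upwards [h2.eventually_ge_atTop θ] with n hn using Or.inr hn
    have h3 : ∀ᶠ n : ℕ in atTop, ∀ i j : S, f i = f j ∨ θ ≤ (n : ℝ) * ‖f j - f i‖ :=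
      Filter.eventually_all.2 fun i => Filter.eventually_all.2 fun j => h1 i j
    obtain ⟨n, hn1, hn2⟩ := (h3.and (Filter.eventually_gt_atTop 0)).exists
    exact ⟨n, hn2, hn1⟩
  obtain ⟨n, hn0, hn⟩ := hn
  have hn0' : (0 : ℝ) < n := by exact_mod_cast hn0
  set g : S → M := fun i => F ((n : ℝ) • f i) with hg
  have hd : ∀ i j : S, dist ((n : ℝ) • f i) ((n : ℝ) • f j) = n * ‖f j - f i‖ := by
    intro i j
    rw [dist_eq_norm, ← smul_sub, norm_smul, Real.norm_of_nonneg hn0'.le, norm_sub_rev]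
  have hg1 : ∀ i j : S, a * (n * ‖f j - f i‖) ≤ dist (g i) (g j) ∧
      dist (g i) (g j) ≤ A * (n * ‖f j - f i‖) := by
    intro i j
    rcases hn i j with hij | hij
    · have : g i = g j := by simp only [hg, hij]
      rw [this, hij, dist_self, sub_self, norm_zero, mul_zero, mul_zero, mul_zero]
      exact ⟨le_rfl, le_rfl⟩
    · have := hF ((n : ℝ) • f i) ((n : ℝ) • f j) (by rw [hd]; exact hij)
      rwa [hd] at this
  have key := h g
  have hPt := hP.pow t
  -- lower bound of the left side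
  have hlow : (a * n) ^ p * ∑ i, ∑ j, (P ^ t) i j * ‖f j - f i‖ ^ p ≤
      ∑ i, ∑ j, (P ^ t) i j * dist (g i) (g j) ^ p := by
    rw [Finset.mul_sum]
    refine Finset.sum_le_sum fun i _ => ?_
    rw [Finset.mul_sum]
    refine Finset.sum_le_sum fun j _ => ?_
    have h1 : (a * n) ^ p * ‖f j - f i‖ ^ p ≤ dist (g i) (g j) ^ p := by
      rw [← Real.mul_rpow (by positivity) (norm_nonneg _)]
      refine Real.rpow_le_rpow (by positivity) ?_ hp.le
      rw [mul_assoc]
      exact (hg1 i j).1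
    calc (a * n) ^ p * ((P ^ t) i j * ‖f j - f i‖ ^ p)
        = (P ^ t) i j * ((a * n) ^ p * ‖f j - f i‖ ^ p) := by ring
      _ ≤ _ := mul_le_mul_of_nonneg_left h1 (hPt.nonneg i j)
  have hup : ∑ i, ∑ j, P i j * dist (g i) (g j) ^ p ≤
      (A * n) ^ p * ∑ i, ∑ j, P i j * ‖f j - f i‖ ^ p := by
    rw [Finset.mul_sum]
    refine Finset.sum_le_sum fun i _ => ?_
    rw [Finset.mul_sum]
    refine Finset.sum_le_sum fun j _ => ?_
    have h1 : dist (g i) (g j) ^ p ≤ (A * n) ^ p * ‖f j - f i‖ ^ p := by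
      rw [← Real.mul_rpow (by positivity) (norm_nonneg _)]
      refine Real.rpow_le_rpow dist_nonneg ?_ hp.le
      rw [mul_assoc]
      exact (hg1 i j).2
    calc P i j * dist (g i) (g j) ^ p ≤ P i j * ((A * n) ^ p * ‖f j - f i‖ ^ p) :=
          mul_le_mul_of_nonneg_left h1 (hP.nonneg i j)
      _ = _ := by ring
  set Lt := ∑ i, ∑ j, (P ^ t) i j * ‖f j - f i‖ ^ p with hLt
  set L1 := ∑ i, ∑ j, P i j * ‖f j - f i‖ ^ p with hL1
  have h5 : (a * n) ^ p * Lt ≤ c * ((A * n) ^ p * L1) :=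
    hlow.trans (key.trans (mul_le_mul_of_nonneg_left hup hc))
  have h6 : (A * n) ^ p = (a * n) ^ p * (A / a) ^ p := by
    rw [← Real.mul_rpow (by positivity) (by positivity)]
    congr 1
    field_simp
  have h7 : (0 : ℝ) < (a * n) ^ p := Real.rpow_pos_of_pos (by positivity) p
  have h8 : Lt ≤ c * (A / a) ^ p * L1 := by
    rw [h6] at h5
    refine le_of_mul_le_mul_left ?_ h7
    calc _ ≤ _ := h5
      _ = _ := by ring
  have hm : ∀ s : ℕ, moment (fun x : X => ‖x‖) p (fun _ : S => (Fintype.card S : ℝ)⁻¹) P f s =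
      (Fintype.card S : ℝ)⁻¹ * ∑ i, ∑ j, (P ^ s) i j * ‖f j - f i‖ ^ p := by
    intro s
    unfold moment
    rw [Finset.mul_sum]
    refine Finset.sum_congr rfl fun i _ => ?_
    rw [Finset.mul_sum]
    exact Finset.sum_congr rfl fun j _ => by ring
  rw [hm, hm, pow_one]
  calc (Fintype.card S : ℝ)⁻¹ * Lt ≤ (Fintype.card S : ℝ)⁻¹ * (c * (A / a) ^ p * L1) :=
        mul_le_mul_of_nonneg_left h8 (by positivity)
    _ = _ := by ring

/-- `A_u = ∑ (P ^ u) i j * d(f i, f j) ^ p` -/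
noncomputable def Asum {M : Type*} [PseudoMetricSpace M] {S : Type} [Fintype S] [DecidableEq S]
    (P : Matrix S S ℝ) (f : S → M) (p : ℝ) (u : ℕ) : ℝ :=
  ∑ i, ∑ j, (P ^ u) i j * dist (f i) (f j) ^ p

section Asum

variable {M : Type*} [PseudoMetricSpace M] {S : Type} [Fintype S] [DecidableEq S]
  {P : Matrix S S ℝ} (hP : IsSymmChain P) (f : S → M) {p : ℝ}

include hP in
theorem Asum_nonneg (u : ℕ) : 0 ≤ Asum P f p u := dsum_nonneg (hP.pow u) f p

theorem Asum_zero (hp : 0 < p) : Asum P f p 0 = 0 := by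
  unfold Asum
  refine Finset.sum_eq_zero fun i _ => Finset.sum_eq_zero fun j _ => ?_
  rw [pow_zero, Matrix.one_apply]
  split_ifs with h
  · subst h
    rw [dist_self, Real.zero_rpow hp.ne', mul_zero]
  · rw [zero_mul]

include hP in
theorem Asum_add (hp : 1 ≤ p) (a b : ℕ) :
    Asum P f p (a + b) ≤ 2 ^ (p - 1) * (Asum P f p a + Asum P f p b) := by
  have hp0 : 0 < p := by linarith
  have ha := hP.pow a
  have hb := hP.pow b
  have hconv : ∀ x y : ℝ, 0 ≤ x → 0 ≤ y → (x + y) ^ p ≤ 2 ^ (p - 1) * (x ^ p + y ^ p) := by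
    intro x y hx hy
    have h2 := (convexOn_rpow hp).2 (Set.mem_Ici.2 hx) (Set.mem_Ici.2 hy)
      (by norm_num : (0 : ℝ) ≤ 1 / 2) (by norm_num : (0 : ℝ) ≤ 1 / 2)
      (by norm_num : (1 / 2 : ℝ) + 1 / 2 = 1)
    simp only [smul_eq_mul] at h2
    have e1 : (x + y) = 2 * (1 / 2 * x + 1 / 2 * y) := by ring
    rw [e1, Real.mul_rpow (by norm_num) (by positivity)]
    have e2 : (2 : ℝ) ^ (p - 1) * (x ^ p + y ^ p) = 2 ^ p * (1 / 2 * x ^ p + 1 / 2 * y ^ p) := by
      rw [Real.rpow_sub_one (by norm_num)]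
      ring
    rw [e2]
    exact mul_le_mul_of_nonneg_left h2 (by positivity)
  have h4 : ∀ i j : S, (P ^ (a + b)) i j * dist (f i) (f j) ^ p ≤
      ∑ k, ((P ^ a) i k * (P ^ b) k j) * (2 ^ (p - 1) * dist (f i) (f k) ^ p +
        2 ^ (p - 1) * dist (f k) (f j) ^ p) := by
    intro i j
    rw [pow_add, Matrix.mul_apply, Finset.sum_mul]
    refine Finset.sum_le_sum fun k _ => ?_
    refine mul_le_mul_of_nonneg_left ?_ (mul_nonneg (ha.nonneg i k) (hb.nonneg k j))
    refine (Real.rpow_le_rpow dist_nonneg (dist_triangle (f i) (f k) (f j)) hp0.le).trans ?_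
    rw [← mul_add]
    exact hconv _ _ dist_nonneg dist_nonneg
  refine (Finset.sum_le_sum fun i _ => Finset.sum_le_sum fun j _ => h4 i j).trans ?_
  have hcol : ∀ k : S, ∑ i, (P ^ a) i k = 1 := by
    intro k
    rw [← ha.row_sum k]
    exact Finset.sum_congr rfl fun i _ => ha.symm i k
  have e1 : ∑ i, ∑ j, ∑ k, ((P ^ a) i k * (P ^ b) k j) *
      (2 ^ (p - 1) * dist (f i) (f k) ^ p + 2 ^ (p - 1) * dist (f k) (f j) ^ p) =
      ∑ i, ∑ k, ∑ j, ((2 ^ (p - 1) * ((P ^ a) i k * dist (f i) (f k) ^ p)) * (P ^ b) k j +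
        (2 ^ (p - 1) * ((P ^ b) k j * dist (f k) (f j) ^ p)) * (P ^ a) i k) := by
    refine Finset.sum_congr rfl fun i _ => ?_
    rw [Finset.sum_comm]
    exact Finset.sum_congr rfl fun k _ => Finset.sum_congr rfl fun j _ => by ring
  rw [e1]
  simp only [Finset.sum_add_distrib, ← Finset.mul_sum, ← Finset.sum_mul, hb.row_sum, mul_one]
  unfold Asum
  rw [mul_add]
  refine add_le_add le_rfl (le_of_eq ?_)
  rw [Finset.sum_comm]
  simp only [← Finset.mul_sum, hcol, mul_one]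

include hP in
theorem Asum_mul (hp : 1 ≤ p) {m : ℕ} (hm : 1 ≤ m) (s : ℕ) :
    Asum P f p (s * m) ≤ (m : ℝ) ^ p * Asum P f p s := by
  have h := oneTimeIneq_trivial M hp hm S (P ^ s) (hP.pow s) f
  unfold Asum
  rw [pow_mul]
  exact h

end Asum

/-- Superreflexive spaces: the displacement is `o(T)`, uniformly over all symmetric chains. -/
theorem small_of_superreflexive {X : Type*} [NormedAddCommGroup X] [NormedSpace ℝ X]
    (h : Superreflexive X) {p : ℝ} (hp : 1 < p) {ε : ℝ} (hε : 0 < ε) :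
    ∃ T₀ : ℕ, ∀ T : ℕ, T₀ ≤ T → OneTimeIneq X p T ((ε * T) ^ p) := by
  have hp0 : 0 < p := by linarith
  obtain ⟨t, c, ht, hc, hI⟩ := oneTime_of_superreflexive h hp
  have htR : (0 : ℝ) < t := by exact_mod_cast ht
  have htp : (0 : ℝ) < (t : ℝ) ^ p := Real.rpow_pos_of_pos htR p
  set c' := max c 0 with hc'
  have hc'0 : 0 ≤ c' := le_max_right _ _
  have hc'1 : c' < (t : ℝ) ^ p := max_lt hc htp
  have h' : OneTimeIneq X p t c' := hI.mono (le_max_left _ _)
  set r := c' / (t : ℝ) ^ p with hr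
  have hr0 : 0 ≤ r := div_nonneg hc'0 htp.le
  have hr1 : r < 1 := (div_lt_one htp).2 hc'1
  have hε4 : (0 : ℝ) < (ε / 4) ^ p := Real.rpow_pos_of_pos (by positivity) p
  obtain ⟨k, hk⟩ := ((tendsto_pow_atTop_nhds_zero_of_lt_one hr0 hr1).eventually_lt_const
    hε4).exists
  set s : ℕ := t ^ k with hs
  have hs1 : 1 ≤ s := Nat.one_le_pow _ _ ht
  have hsR : (0 : ℝ) < s := by exact_mod_cast hs1
  have hcs : c' ^ k ≤ (ε * s / 4) ^ p := by
    have e : (s : ℝ) ^ p = ((t : ℝ) ^ p) ^ k := by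
      rw [hs]
      push_cast
      rw [← Real.rpow_natCast, ← Real.rpow_natCast, ← Real.rpow_mul htR.le,
        ← Real.rpow_mul htR.le, mul_comm]
    have h9 : c' ^ k = r ^ k * ((t : ℝ) ^ p) ^ k := by
      rw [← mul_pow, hr, div_mul_cancel₀ _ htp.ne']
    have e2 : (ε * s / 4 : ℝ) = ε / 4 * s := by ring
    rw [h9, e2, Real.mul_rpow (by positivity) hsR.le, e]
    exact mul_le_mul_of_nonneg_right hk.le (by positivity)
  have hIs : OneTimeIneq X p s (c' ^ k) := h'.iter hc'0 k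
  obtain ⟨T₁, hT₁⟩ := exists_nat_ge (4 * s / ε)
  refine ⟨T₁ + s, fun T hT => ?_⟩
  intro S _ _ P hP f
  have hTs : s ≤ T := by omega
  have hTR : (4 * s / ε : ℝ) ≤ T := hT₁.trans (by exact_mod_cast (by omega : T₁ ≤ T))
  have hsT : (s : ℝ) ≤ ε * T / 4 := by
    rw [div_le_iff₀ hε] at hTR
    linarith
  have hm : 1 ≤ T / s := (Nat.one_le_div_iff hs1).2 hTs
  have hdm : s * (T / s) + T % s = T := Nat.div_add_mod T s
  have hA1 : 0 ≤ Asum P f p 1 := Asum_nonneg hP f 1
  have e1 : Asum P f p 1 = ∑ i, ∑ j, P i j * dist (f i) (f j) ^ p := by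
    unfold Asum
    rw [pow_one]
  have h1 : Asum P f p s ≤ c' ^ k * Asum P f p 1 := by
    rw [e1]
    exact hIs S P hP f
  have h2 : Asum P f p (s * (T / s)) ≤ (ε * T / 4) ^ p * Asum P f p 1 := by
    refine (Asum_mul hP f hp.le hm s).trans ?_
    calc ((T / s : ℕ) : ℝ) ^ p * Asum P f p s
        ≤ ((T / s : ℕ) : ℝ) ^ p * ((ε * s / 4) ^ p * Asum P f p 1) :=
          mul_le_mul_of_nonneg_left (h1.trans (mul_le_mul_of_nonneg_right hcs hA1))
            (by positivity)
      _ = (((T / s : ℕ) : ℝ) * (ε * s / 4)) ^ p * Asum P f p 1 := by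
          rw [Real.mul_rpow (by positivity) (by positivity)]
          ring
      _ ≤ _ := by
          refine mul_le_mul_of_nonneg_right ?_ hA1
          refine Real.rpow_le_rpow (by positivity) ?_ hp0.le
          have h3 : ((s * (T / s) : ℕ) : ℝ) ≤ T := by exact_mod_cast Nat.mul_div_le T s
          push_cast at h3
          nlinarith
  have h3 : Asum P f p (T % s) ≤ (ε * T / 4) ^ p * Asum P f p 1 := by
    rcases Nat.eq_zero_or_pos (T % s) with h0 | h0
    · rw [h0, Asum_zero f hp0]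
      positivity
    · have h4 := Asum_mul hP f hp.le h0 1
      rw [one_mul] at h4
      refine h4.trans (mul_le_mul_of_nonneg_right ?_ hA1)
      refine Real.rpow_le_rpow (by positivity) ?_ hp0.le
      have h5 : ((T % s : ℕ) : ℝ) ≤ s := by exact_mod_cast (Nat.mod_lt T hs1).le
      exact h5.trans hsT
  have h4 := Asum_add hP f hp.le (s * (T / s)) (T % s)
  rw [hdm] at h4
  have h5 : Asum P f p T ≤ (ε * T) ^ p * Asum P f p 1 := by
    refine h4.trans ?_
    have h6 : (2 : ℝ) ^ (p - 1) * (Asum P f p (s * (T / s)) + Asum P f p (T % s)) ≤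
        2 ^ (p - 1) * (2 * ((ε * T / 4) ^ p * Asum P f p 1)) :=
      mul_le_mul_of_nonneg_left (by linarith) (by positivity)
    refine h6.trans ?_
    have e2 : (2 : ℝ) ^ (p - 1) * (2 * ((ε * T / 4) ^ p * Asum P f p 1)) =
        (2 * (ε * T / 4)) ^ p * Asum P f p 1 := by
      rw [Real.rpow_sub_one (by norm_num), Real.mul_rpow (by norm_num) (by positivity)]
      field_simp
    rw [e2]
    refine mul_le_mul_of_nonneg_right ?_ hA1
    refine Real.rpow_le_rpow (by positivity) ?_ hp0.le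
    have : (0 : ℝ) ≤ ε * T := by positivity
    linarith
  rw [e1] at h5
  exact h5

/-- The universal chain at time `t` tests superreflexivity. -/
theorem univ_test {t : ℕ} (ht : 1 ≤ t) :
    ∃ (S : Type) (_ : Fintype S) (_ : DecidableEq S) (P : Matrix S S ℝ),
      IsSymmChain P ∧ (∀ i j, ∃ k : ℕ, P i j = k / (16 * t)) ∧ Nonempty S ∧
      ∀ (X : Type*) [NormedAddCommGroup X] [NormedSpace ℝ X] (M : Type*) [PseudoMetricSpace M]
        (F : X → M) (θ a A : ℝ), 0 < a → 0 < A →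
        (∀ x y, θ ≤ dist x y →
          a * dist x y ≤ dist (F x) (F y) ∧ dist (F x) (F y) ≤ A * dist x y) →
        ∀ p : ℝ, 1 ≤ p → ∀ c : ℝ, 0 ≤ c → 2 * (c * (A / a) ^ p * 2 ^ p) < (t : ℝ) ^ p →
        ChainIneq P M p t c →
        Superreflexive X ∧ ∃ N : Seminorm ℝ X, EquivalentNorm N ∧ UniformlySmoothNorm N := by
  obtain ⟨U, _, _, hne, P, hP, hP2, hP3⟩ := exists_univ t ht
  refine ⟨U, inferInstance, inferInstance, P, hP, hP2, hne, ?_⟩
  intro X _ _ M _ F θ a A ha hA hF p hp c hc hct h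
  have h1 := oneAt_of_coarse hP ha hA hF (by linarith : 0 < p) hc h
  have hc' : 0 ≤ c * (A / a) ^ p := by positivity
  exact superreflexive_of_oneAt hp ht hc' (fun ν h2 h3 h4 => hP3 p _ hp hc' ν h2 h3 h4) h1 hct

/-! ### One chain with the sharp constant -/

section Block

variable {S : Type} [Fintype S] [DecidableEq S] {k : ℕ}

theorem block_sum (Q : Fin k → Matrix S S ℝ) {M : Type*} [PseudoMetricSpace M] {p : ℝ}
    (hp : 0 < p) (j : Fin k) (f : S → M) (m₀ : M) :
    ∑ x : S × Fin k, ∑ y : S × Fin k, Matrix.blockDiagonal Q x y *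
      dist (if x.2 = j then f x.1 else m₀) (if y.2 = j then f y.1 else m₀) ^ p =
      ∑ i, ∑ l, Q j i l * dist (f i) (f l) ^ p := by
  simp only [Fintype.sum_prod_type, Matrix.blockDiagonal_apply]
  refine Finset.sum_congr rfl fun i _ => ?_
  rw [Finset.sum_eq_single j]
  · refine Finset.sum_congr rfl fun l _ => ?_
    rw [Finset.sum_eq_single j]
    · simp
    · intro b _ hb
      rw [if_neg (Ne.symm hb), zero_mul]
    · intro h
      exact absurd (Finset.mem_univ _) h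
  · intro a _ ha
    refine Finset.sum_eq_zero fun l _ => Finset.sum_eq_zero fun b _ => ?_
    by_cases hab : a = b
    · subst hab
      rw [if_neg ha, if_neg ha, dist_self, Real.zero_rpow hp.ne', mul_zero]
    · rw [if_neg hab, zero_mul]
  · intro h
    exact absurd (Finset.mem_univ _) h

theorem block_symm {Q : Fin k → Matrix S S ℝ} (hQ : ∀ a, IsSymmChain (Q a)) :
    IsSymmChain (Matrix.blockDiagonal Q) := by
  refine ⟨fun x y => ?_, fun x => ?_, fun x y => ?_⟩
  · rw [Matrix.blockDiagonal_apply]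
    split_ifs
    · exact (hQ _).nonneg _ _
    · exact le_rfl
  · simp only [Fintype.sum_prod_type, Matrix.blockDiagonal_apply]
    rw [← (hQ x.2).row_sum x.1]
    refine Finset.sum_congr rfl fun l _ => ?_
    rw [Finset.sum_eq_single x.2]
    · rw [if_pos rfl]
    · intro b _ hb
      rw [if_neg (Ne.symm hb)]
    · intro h
      exact absurd (Finset.mem_univ _) h
  · rw [Matrix.blockDiagonal_apply, Matrix.blockDiagonal_apply]
    by_cases h : x.2 = y.2
    · rw [if_pos h, if_pos h.symm, h]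
      exact (hQ _).symm _ _
    · rw [if_neg h, if_neg (Ne.symm h)]

theorem chainIneq_of_block {Q : Fin k → Matrix S S ℝ} {M : Type*} [PseudoMetricSpace M] {p : ℝ}
    (hp : 0 < p) {t : ℕ} {c : ℝ} (h : ChainIneq (Matrix.blockDiagonal Q) M p t c) (j : Fin k) :
    ChainIneq (Q j) M p t c := by
  intro f
  rcases isEmpty_or_nonempty S with hS | ⟨⟨i₀⟩⟩
  · simp
  have h1 := h (fun x => if x.2 = j then f x.1 else f i₀)
  have h2 : Matrix.blockDiagonal Q ^ t = Matrix.blockDiagonal (Q ^ t) :=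
    (Matrix.blockDiagonal_pow Q t).symm
  rw [h2, block_sum (Q ^ t) hp j f (f i₀), block_sum Q hp j f (f i₀)] at h1
  exact h1

/-- Iteration along the powers `t ^ j` of one chain. -/
theorem chainIneq_iter {P : Matrix S S ℝ} {M : Type*} [PseudoMetricSpace M] {p : ℝ} {t : ℕ}
    {c : ℝ} (hc : 0 ≤ c) (h : ∀ j, j < k → ChainIneq (P ^ (t ^ j)) M p t c) :
    ∀ m, m ≤ k → ChainIneq P M p (t ^ m) (c ^ m) := by
  intro m
  induction m with
  | zero =>
    intro _ f
    simp
  | succ m ih =>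
    intro hm f
    have h1 := h m (by omega) f
    have h2 := ih (by omega) f
    have e : P ^ t ^ (m + 1) = (P ^ (t ^ m)) ^ t := by rw [← pow_mul, pow_succ]
    rw [e]
    calc _ ≤ _ := h1
      _ ≤ c * (c ^ m * ∑ i, ∑ j, P i j * dist (f i) (f j) ^ p) :=
        mul_le_mul_of_nonneg_left h2 hc
      _ = _ := by rw [pow_succ]; ring

end Block

theorem ChainIneq.mono {S : Type} [Fintype S] [DecidableEq S] {P : Matrix S S ℝ}
    (hP : IsSymmChain P) {M : Type*} [PseudoMetricSpace M] {p : ℝ} {t : ℕ} {c c' : ℝ}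
    (h : ChainIneq P M p t c) (hc : c ≤ c') : ChainIneq P M p t c' := fun f =>
  (h f).trans (mul_le_mul_of_nonneg_right hc (dsum_nonneg hP f p))

/-- One finite chain with the sharp constant `c < t ^ p`. -/
theorem sharp_chain {p : ℝ} (hp : 1 ≤ p) {t : ℕ} (ht : 1 ≤ t) {c : ℝ} (hc : c < (t : ℝ) ^ p)
    (D : ℝ) :
    ∃ (S : Type) (_ : Fintype S) (_ : DecidableEq S) (P : Matrix S S ℝ), IsSymmChain P ∧
      ∀ (X : Type*) [NormedAddCommGroup X] [NormedSpace ℝ X] (M : Type*) [PseudoMetricSpace M]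
        (F : X → M) (θ a : ℝ), 0 < a →
        (∀ x y, θ ≤ dist x y →
          a * dist x y ≤ dist (F x) (F y) ∧ dist (F x) (F y) ≤ D * a * dist x y) →
        ChainIneq P M p t c →
        Superreflexive X ∧ ∃ N : Seminorm ℝ X, EquivalentNorm N ∧ UniformlySmoothNorm N := by
  have hp0 : 0 < p := by linarith
  have htR : (0 : ℝ) < t := by exact_mod_cast ht
  have htp : (0 : ℝ) < (t : ℝ) ^ p := Real.rpow_pos_of_pos htR p
  set c' := max c 0 with hc'
  have hc'0 : 0 ≤ c' := le_max_right _ _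
  have hc'1 : c' < (t : ℝ) ^ p := max_lt hc htp
  set D' := max D 1 with hD'
  have hD'0 : 0 < D' := lt_of_lt_of_le one_pos (le_max_right _ _)
  set r := c' / (t : ℝ) ^ p with hr
  have hr0 : 0 ≤ r := div_nonneg hc'0 htp.le
  have hr1 : r < 1 := (div_lt_one htp).2 hc'1
  have hlim : Tendsto (fun k : ℕ => 2 * (D' ^ p * 2 ^ p) * r ^ k) atTop (𝓝 0) := by
    have := (tendsto_pow_atTop_nhds_zero_of_lt_one hr0 hr1).const_mul (2 * (D' ^ p * 2 ^ p))
    simpa using this
  obtain ⟨k, hk⟩ := (hlim.eventually_lt_const one_pos).exists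
  obtain ⟨U, _, _, P₀, hP₀, -, -, htest⟩ := univ_test (t := t ^ k) (Nat.one_le_pow _ _ ht)
  refine ⟨U × Fin k, inferInstance, inferInstance,
    Matrix.blockDiagonal (fun j : Fin k => P₀ ^ (t ^ (j : ℕ))),
    block_symm fun a => hP₀.pow _, ?_⟩
  intro X _ _ M _ F θ a ha hF h
  have hsym : IsSymmChain (Matrix.blockDiagonal (fun j : Fin k => P₀ ^ (t ^ (j : ℕ)))) :=
    block_symm fun a => hP₀.pow _
  have h1 := ChainIneq.mono hsym h (le_max_left c 0)
  have h2 : ∀ j, j < k → ChainIneq (P₀ ^ (t ^ j)) M p t c' := fun j hj =>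
    chainIneq_of_block hp0 h1 ⟨j, hj⟩
  have h3 := chainIneq_iter hc'0 h2 k le_rfl
  refine htest X M F θ a (D' * a) ha (by positivity) (fun x y hxy => ⟨(hF x y hxy).1,
    (hF x y hxy).2.trans ?_⟩) p hp (c' ^ k) (by positivity) ?_ h3
  · refine mul_le_mul_of_nonneg_right ?_ dist_nonneg
    exact mul_le_mul_of_nonneg_right (le_max_left _ _) ha.le
  · have e : ((t ^ k : ℕ) : ℝ) ^ p = ((t : ℝ) ^ p) ^ k := by
      push_cast
      rw [← Real.rpow_natCast, ← Real.rpow_natCast, ← Real.rpow_mul htR.le, ← Real.rpow_mul htR.le,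
        mul_comm]
    rw [e, mul_div_cancel_right₀ _ ha.ne']
    have h9 : c' ^ k = r ^ k * ((t : ℝ) ^ p) ^ k := by
      rw [← mul_pow, hr, div_mul_cancel₀ _ htp.ne']
    have h10 : (0 : ℝ) < ((t : ℝ) ^ p) ^ k := pow_pos htp k
    calc 2 * (c' ^ k * D' ^ p * 2 ^ p)
        = (2 * (D' ^ p * 2 ^ p) * r ^ k) * ((t : ℝ) ^ p) ^ k := by rw [h9]; ring
      _ < 1 * ((t : ℝ) ^ p) ^ k := mul_lt_mul_of_pos_right hk h10
      _ = _ := one_mul _

universe u

/-- The universal chains. -/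
theorem univ_chains :
    ∃ (S : ℕ → Type) (_ : ∀ T, Fintype (S T)) (_ : ∀ T, DecidableEq (S T))
      (P : ∀ T, Matrix (S T) (S T) ℝ),
      ∀ T : ℕ, 1 ≤ T → IsSymmChain (P T) ∧ (∀ i j, ∃ k : ℕ, P T i j = k / (16 * T)) ∧
        ∀ (X : Type u) [NormedAddCommGroup X] [NormedSpace ℝ X] (p : ℝ), 1 ≤ p →
          ChainIneq (P T) X p T (((T : ℝ) / 5) ^ p) → Superreflexive X := by
  have hall : ∀ T : ℕ, ∃ (S : Type) (_ : Fintype S) (_ : DecidableEq S) (P : Matrix S S ℝ),
      1 ≤ T → IsSymmChain P ∧ (∀ i j, ∃ k : ℕ, P i j = k / (16 * T)) ∧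
        ∀ (X : Type u) [NormedAddCommGroup X] [NormedSpace ℝ X] (p : ℝ), 1 ≤ p →
          ChainIneq P X p T (((T : ℝ) / 5) ^ p) → Superreflexive X := by
    intro T
    rcases Nat.eq_zero_or_pos T with h0 | hT
    · exact ⟨Unit, inferInstance, inferInstance, 1, fun h => absurd h (by omega)⟩
    obtain ⟨U, _, _, P, hP, hP2, -, htest⟩ := univ_test.{u, u} hT
    refine ⟨U, inferInstance, inferInstance, P, fun _ => ⟨hP, hP2, ?_⟩⟩
    intro X _ _ p hp hchain
    have hTR : (0 : ℝ) < T := by exact_mod_cast hT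
    refine (htest X X (fun x => x) 0 1 1 one_pos one_pos
      (fun x y _ => by rw [one_mul]; exact ⟨le_rfl, le_rfl⟩) p hp (((T : ℝ) / 5) ^ p)
      (by positivity) ?_ hchain).1
    have e : 2 * (((T : ℝ) / 5) ^ p * (1 / 1) ^ p * 2 ^ p) = 2 * (2 / 5) ^ p * (T : ℝ) ^ p := by
      rw [div_one, Real.one_rpow, mul_one, ← Real.mul_rpow (by positivity) (by norm_num),
        mul_assoc, ← Real.mul_rpow (by norm_num) hTR.le]
      congr 2
      ring
    rw [e]
    have h1 : (2 / 5 : ℝ) ^ p ≤ (2 / 5 : ℝ) ^ (1 : ℝ) :=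
      Real.rpow_le_rpow_of_exponent_ge (by norm_num) (by norm_num) hp
    rw [Real.rpow_one] at h1
    have h2 : (0 : ℝ) < (T : ℝ) ^ p := Real.rpow_pos_of_pos hTR p
    nlinarith
  choose S i1 i2 P h using hall
  exact ⟨S, i1, i2, P, h⟩

end P125.H154
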